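import Mathlib

open Matrix

namespace Vale.Agent.P174.H513

section Abs

variable {J α β : Type*} [Fintype J] [DecidableEq J] [Fintype α] [DecidableEq α]
  [Fintype β] [DecidableEq β] {K : Type*} [Field K]

/-- determinant of a block diagonal matrix with the block index first -/
lemma det_blockDiag {n : Type*} [Fintype n] [DecidableEq n] (B : J → Matrix n n K) :
    (Matrix.of fun (x y : J × n) => if x.1 = y.1 then B x.1 x.2 y.2 else 0).det
      = ∏ j, (B j).det := by
  rw [← Matrix.det_blockDiagonal, ← Matrix.det_submatrix_equiv_self (Equiv.prodComm J n)]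
  congr 1

/-- determinant of `X ↦ A X B` -/
lemma det_mulmul {n m : Type*} [Fintype n] [DecidableEq n] [Fintype m] [DecidableEq m]
    (A : Matrix n n K) (B : Matrix m m K) :
    (Matrix.of fun (x y : n × m) => A x.1 y.1 * B y.2 x.2).det
      = A.det ^ Fintype.card m * B.det ^ Fintype.card n := by
  have h := Matrix.det_kronecker A Bᵀ
  rw [Matrix.det_transpose] at h
  rw [← h]
  congr 1

/-- entries of `A * single p q 1 * B` -/
lemma mul_single_mul_apply {n : Type*} [Fintype n] [DecidableEq n] (A B : Matrix n n K)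
    (p q p' q' : n) : (A * Matrix.single p' q' (1 : K) * B) p q = A p p' * B q' q := by
  rw [Matrix.mul_apply]
  rw [Finset.sum_eq_single q']
  · rw [Matrix.mul_single_apply_same, mul_one]
  · intro b _ hb
    rw [Matrix.mul_single_apply_of_ne (hbj := hb), zero_mul]
  · intro h; exact absurd (Finset.mem_univ _) h

/-- the index equivalence -/
def idxE (J α β : Type*) :
    (J × α × α) ⊕ (J × ((α × β) ⊕ ((β × α) ⊕ (β × β)))) ≃ J × (α ⊕ β) × (α ⊕ β) where
  toFun x := match x with
    | Sum.inl (j, p, q) => (j, Sum.inl p, Sum.inl q)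
    | Sum.inr (j, Sum.inl (p, q)) => (j, Sum.inl p, Sum.inr q)
    | Sum.inr (j, Sum.inr (Sum.inl (p, q))) => (j, Sum.inr p, Sum.inl q)
    | Sum.inr (j, Sum.inr (Sum.inr (p, q))) => (j, Sum.inr p, Sum.inr q)
  invFun x := match x with
    | (j, Sum.inl p, Sum.inl q) => Sum.inl (j, p, q)
    | (j, Sum.inl p, Sum.inr q) => Sum.inr (j, Sum.inl (p, q))
    | (j, Sum.inr p, Sum.inl q) => Sum.inr (j, Sum.inr (Sum.inl (p, q)))
    | (j, Sum.inr p, Sum.inr q) => Sum.inr (j, Sum.inr (Sum.inr (p, q)))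
  left_inv := by
    rintro (⟨j, p, q⟩ | ⟨j, (⟨p, q⟩ | ⟨p, q⟩ | ⟨p, q⟩)⟩) <;> rfl
  right_inv := by
    rintro ⟨j, (p | p), (q | q)⟩ <;> rfl

end Abs

section Tri

variable {J α β : Type*} [Fintype J] [DecidableEq J] [Fintype α] [DecidableEq α]
  [Fintype β] [DecidableEq β] {K : Type*} [Field K]

/-- `y ⊕ 1` -/
abbrev XB (y : Matrix α α K) : Matrix (α ⊕ β) (α ⊕ β) K := fromBlocks y 0 0 1

/-- `1 ⊕ s` -/
abbrev SB (s : Matrix β β K) : Matrix (α ⊕ β) (α ⊕ β) K := fromBlocks 1 0 0 s

/-- `ξ ⊕ 0` -/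
abbrev TB (x : Matrix α α K) : Matrix (α ⊕ β) (α ⊕ β) K := fromBlocks x 0 0 0

/-- the columns of the triangular matrix -/
def Tc (v vi : J → Matrix (α ⊕ β) (α ⊕ β) K) (s si : J → Matrix β β K) (y yi : J → Matrix α α K)
    (W : Matrix (J × α × α) (J × α × α) K) (j : J) :
    J × (α ⊕ β) × (α ⊕ β) → Matrix (α ⊕ β) (α ⊕ β) K
  | (i, Sum.inl p, Sum.inl q) =>
      v j * XB (yi j) * TB (Matrix.of fun a b => W (j, a, b) (i, p, q)) * XB (y j) * vi j
  | (i, Sum.inl p, Sum.inr q) => if j = i then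
      SB (s j) * single (Sum.inl p) (Sum.inr q) 1 * SB (si j) - single (Sum.inl p) (Sum.inr q) 1 else 0
  | (i, Sum.inr p, Sum.inl q) => if j = i then
      SB (s j) * single (Sum.inr p) (Sum.inl q) 1 * SB (si j) - single (Sum.inr p) (Sum.inl q) 1 else 0
  | (i, Sum.inr p, Sum.inr q) => if j = i then single (Sum.inr p) (Sum.inr q) 1 else 0

/-- the triangular matrix -/
def TT (v vi : J → Matrix (α ⊕ β) (α ⊕ β) K) (s si : J → Matrix β β K) (y yi : J → Matrix α α K)
    (W : Matrix (J × α × α) (J × α × α) K) :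
    Matrix (J × (α ⊕ β) × (α ⊕ β)) (J × (α ⊕ β) × (α ⊕ β)) K :=
  Matrix.of fun x c => Tc v vi s si y yi W x.1 c x.2.1 x.2.2

/-- the lower right part -/
def BB (s si : J → Matrix β β K) :
    Matrix (J × ((α × β) ⊕ ((β × α) ⊕ (β × β)))) (J × ((α × β) ⊕ ((β × α) ⊕ (β × β)))) K :=
  Matrix.of fun x z => if x.1 = z.1 then
    (fromBlocks (Matrix.of fun (a b : α × β) => (1 : Matrix α α K) a.1 b.1 * (si x.1 - 1) b.2 a.2) 0 0
      (fromBlocks (Matrix.of fun (a b : β × α) => (s x.1 - 1) a.1 b.1 * (1 : Matrix α α K) b.2 a.2)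
        0 0 1)) x.2 z.2 else 0

lemma det_BB (s si : J → Matrix β β K) : (BB (α := α) s si).det =
    ∏ j, ((si j - 1).det ^ Fintype.card α * (s j - 1).det ^ Fintype.card α) := by
  unfold BB
  rw [det_blockDiag (fun j => (fromBlocks (Matrix.of fun (a b : α × β) =>
    (1 : Matrix α α K) a.1 b.1 * (si j - 1) b.2 a.2) 0 0
      (fromBlocks (Matrix.of fun (a b : β × α) => (s j - 1) a.1 b.1 * (1 : Matrix α α K) b.2 a.2)
        0 0 1)))]
  refine Finset.prod_congr rfl fun j _ => ?_
  rw [det_fromBlocks_zero₂₁, det_fromBlocks_zero₂₁, det_mulmul, det_mulmul]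
  simp

/-- the upper left part -/
def AA (a b : J → Matrix α α K) (W : Matrix (J × α × α) (J × α × α) K) :
    Matrix (J × α × α) (J × α × α) K :=
  (Matrix.of fun (x z : J × α × α) => if x.1 = z.1 then a x.1 x.2.1 z.2.1 * b x.1 z.2.2 x.2.2 else 0) * W

lemma det_AA (a b : J → Matrix α α K) (W : Matrix (J × α × α) (J × α × α) K) :
    (AA a b W).det = (∏ j, ((a j).det ^ Fintype.card α * (b j).det ^ Fintype.card α)) * W.det := by
  unfold AA
  rw [det_mul]
  congr 1
  rw [show (Matrix.of fun (x z : J × α × α) => if x.1 = z.1 then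
      a x.1 x.2.1 z.2.1 * b x.1 z.2.2 x.2.2 else 0) = (Matrix.of fun (x z : J × α × α) =>
      if x.1 = z.1 then (Matrix.of fun (c d : α × α) => a x.1 c.1 d.1 * b x.1 d.2 c.2) x.2 z.2 else 0)
      from rfl]
  rw [det_blockDiag (fun j => (Matrix.of fun (c d : α × α) => a j c.1 d.1 * b j d.2 c.2))]
  exact Finset.prod_congr rfl fun j _ => det_mulmul _ _

lemma AA_apply (a b : J → Matrix α α K) (W : Matrix (J × α × α) (J × α × α) K) (j : J) (p q : α)
    (z : J × α × α) : AA a b W (j, p, q) z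
      = (a j * (Matrix.of fun c d => W (j, c, d) z) * b j) p q := by
  unfold AA
  rw [Matrix.mul_apply, Fintype.sum_prod_type, Finset.sum_eq_single j]
  · simp only [Matrix.of_apply, if_true, Fintype.sum_prod_type, Matrix.mul_apply, Finset.sum_mul]
    rw [Finset.sum_comm]
    refine Finset.sum_congr rfl fun c _ => Finset.sum_congr rfl fun d _ => ?_
    ring
  · intro i _ hi
    simp [Ne.symm hi]
  · intro h; exact absurd (Finset.mem_univ _) h

lemma toBlocks_conj (v vi : Matrix (α ⊕ β) (α ⊕ β) K) (x : Matrix α α K) :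
    (v * TB x * vi).toBlocks₁₁ = v.toBlocks₁₁ * x * vi.toBlocks₁₁ := by
  conv_lhs => rw [← fromBlocks_toBlocks v, ← fromBlocks_toBlocks vi]
  simp only [TB, fromBlocks_multiply, Matrix.mul_zero, add_zero, Matrix.zero_mul,
    toBlocks_fromBlocks₁₁]

lemma Tc_self (v vi : J → Matrix (α ⊕ β) (α ⊕ β) K) (s si : J → Matrix β β K)
    (y yi : J → Matrix α α K) (W : Matrix (J × α × α) (J × α × α) K) (j i : J) (p q : α) (a b : α) :
    Tc v vi s si y yi W j (i, Sum.inl p, Sum.inl q) (Sum.inl a) (Sum.inl b)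
      = ((v j).toBlocks₁₁ * yi j * (Matrix.of fun a b => W (j, a, b) (i, p, q)) *
          (y j * (vi j).toBlocks₁₁)) a b := by
  have h1 : (v j * XB (yi j) * TB (Matrix.of fun a b => W (j, a, b) (i, p, q)) * XB (y j) * vi j)
      = v j * TB (yi j * (Matrix.of fun a b => W (j, a, b) (i, p, q)) * y j) * vi j := by
    have h0 : XB (β := β) (yi j) * TB (Matrix.of fun a b => W (j, a, b) (i, p, q)) * XB (y j)
        = TB (yi j * (Matrix.of fun a b => W (j, a, b) (i, p, q)) * y j) := by
      simp [XB, TB, fromBlocks_multiply]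
    rw [← h0]
    simp only [Matrix.mul_assoc]
  have h2 := congrFun (congrFun (toBlocks_conj (v j) (vi j)
    (yi j * (Matrix.of fun a b => W (j, a, b) (i, p, q)) * y j)) a) b
  rw [← h1] at h2
  simp only [Tc]
  rw [show ((v j).toBlocks₁₁ * yi j * (Matrix.of fun a b => W (j, a, b) (i, p, q)) *
          (y j * (vi j).toBlocks₁₁))
      = (v j).toBlocks₁₁ * (yi j * (Matrix.of fun a b => W (j, a, b) (i, p, q)) * y j) *
          (vi j).toBlocks₁₁ by simp only [Matrix.mul_assoc], ← h2]
  rfl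

lemma TT_submatrix (v vi : J → Matrix (α ⊕ β) (α ⊕ β) K) (s si : J → Matrix β β K)
    (y yi : J → Matrix α α K)
    (W : Matrix (J × α × α) (J × α × α) K) :
    ∃ C, (TT v vi s si y yi W).submatrix (idxE J α β) (idxE J α β)
      = fromBlocks (AA (fun j => (v j).toBlocks₁₁ * yi j) (fun j => y j * (vi j).toBlocks₁₁) W) 0 C
        (BB s si) := by
  refine ⟨((TT v vi s si y yi W).submatrix (idxE J α β) (idxE J α β)).toBlocks₂₁, ?_⟩
  have key : ∀ (j : J) (a b : α ⊕ β) (a' b' : α ⊕ β),
      (SB (s j) * single a' b' (1 : K) * SB (si j) - single a' b' 1 : Matrix _ _ K) a b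
        = SB (α := α) (s j) a a' * SB (si j) b' b - single a' b' (1 : K) a b := by
    intro j a b a' b'
    rw [Matrix.sub_apply, mul_single_mul_apply]
  ext x z
  rcases x with ⟨j, p, q⟩ | ⟨j, (⟨p, q⟩ | ⟨p, q⟩ | ⟨p, q⟩)⟩
  · rcases z with ⟨i, p', q'⟩ | ⟨i, (⟨p', q'⟩ | ⟨p', q'⟩ | ⟨p', q'⟩)⟩
    · -- upper left
      rw [fromBlocks_apply₁₁, AA_apply]
      exact Tc_self v vi s si y yi W j i p' q' p q
    · simp only [submatrix_apply, fromBlocks_apply₁₂, Matrix.zero_apply, TT, idxE, Equiv.coe_fn_mk,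
        of_apply, Tc]
      split_ifs
      · rw [key]; simp [SB, single]
      · rfl
    · simp only [submatrix_apply, fromBlocks_apply₁₂, Matrix.zero_apply, TT, idxE, Equiv.coe_fn_mk,
        of_apply, Tc]
      split_ifs
      · rw [key]; simp [SB, single]
      · rfl
    · simp only [submatrix_apply, fromBlocks_apply₁₂, Matrix.zero_apply, TT, idxE, Equiv.coe_fn_mk,
        of_apply, Tc]
      split_ifs
      · simp [single]
      · rfl
  · rcases z with ⟨i, p', q'⟩ | ⟨i, (⟨p', q'⟩ | ⟨p', q'⟩ | ⟨p', q'⟩)⟩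
    · rfl
    · simp only [submatrix_apply, fromBlocks_apply₂₂, TT, idxE, Equiv.coe_fn_mk,
        of_apply, Tc, BB]
      by_cases h : j = i
      · subst h
        rw [if_pos rfl, if_pos rfl, key]
        simp only [SB, fromBlocks_apply₁₁, fromBlocks_apply₂₂, single_apply, of_apply, Matrix.sub_apply,
          Matrix.one_apply, Sum.inl.injEq, Sum.inr.injEq]
        by_cases h1 : p = p' <;> by_cases h2 : q = q' <;> simp [h1, h2, eq_comm]
      · rw [if_neg h, if_neg h]; rfl
    · simp only [submatrix_apply, fromBlocks_apply₂₂, TT, idxE, Equiv.coe_fn_mk,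
        of_apply, Tc, BB]
      by_cases h : j = i
      · subst h
        rw [if_pos rfl, if_pos rfl, key]
        simp [SB, single]
      · rw [if_neg h, if_neg h]; rfl
    · simp only [submatrix_apply, fromBlocks_apply₂₂, TT, idxE, Equiv.coe_fn_mk,
        of_apply, Tc, BB]
      by_cases h : j = i
      · subst h
        rw [if_pos rfl, if_pos rfl]
        simp [single]
      · rw [if_neg h, if_neg h]; rfl
  · rcases z with ⟨i, p', q'⟩ | ⟨i, (⟨p', q'⟩ | ⟨p', q'⟩ | ⟨p', q'⟩)⟩
    · rfl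
    · simp only [submatrix_apply, fromBlocks_apply₂₂, TT, idxE, Equiv.coe_fn_mk,
        of_apply, Tc, BB]
      by_cases h : j = i
      · subst h
        rw [if_pos rfl, if_pos rfl, key]
        simp [SB, single]
      · rw [if_neg h, if_neg h]; rfl
    · simp only [submatrix_apply, fromBlocks_apply₂₂, TT, idxE, Equiv.coe_fn_mk,
        of_apply, Tc, BB]
      by_cases h : j = i
      · subst h
        rw [if_pos rfl, if_pos rfl, key]
        simp only [SB, fromBlocks_apply₁₁, fromBlocks_apply₂₂, single_apply, of_apply, Matrix.sub_apply,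
          Matrix.one_apply, Sum.inl.injEq, Sum.inr.injEq]
        by_cases h1 : p = p' <;> by_cases h2 : q = q' <;> simp [h1, h2, eq_comm]
      · rw [if_neg h, if_neg h]; rfl
    · simp only [submatrix_apply, fromBlocks_apply₂₂, TT, idxE, Equiv.coe_fn_mk,
        of_apply, Tc, BB]
      by_cases h : j = i
      · subst h
        rw [if_pos rfl, if_pos rfl]
        simp [single]
      · rw [if_neg h, if_neg h]; rfl
  · rcases z with ⟨i, p', q'⟩ | ⟨i, (⟨p', q'⟩ | ⟨p', q'⟩ | ⟨p', q'⟩)⟩
    · rfl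
    · simp only [submatrix_apply, fromBlocks_apply₂₂, TT, idxE, Equiv.coe_fn_mk,
        of_apply, Tc, BB]
      by_cases h : j = i
      · subst h
        rw [if_pos rfl, if_pos rfl, key]
        simp [SB, single]
      · rw [if_neg h, if_neg h]; rfl
    · simp only [submatrix_apply, fromBlocks_apply₂₂, TT, idxE, Equiv.coe_fn_mk,
        of_apply, Tc, BB]
      by_cases h : j = i
      · subst h
        rw [if_pos rfl, if_pos rfl, key]
        simp [SB, single]
      · rw [if_neg h, if_neg h]; rfl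
    · simp only [submatrix_apply, fromBlocks_apply₂₂, TT, idxE, Equiv.coe_fn_mk,
        of_apply, Tc, BB]
      by_cases h : j = i
      · subst h
        rw [if_pos rfl, if_pos rfl]
        simp only [fromBlocks_apply₂₂, single_apply, Matrix.one_apply, Prod.mk.injEq, Sum.inr.injEq]
        by_cases h1 : p = p' <;> by_cases h2 : q = q' <;> simp [h1, h2, eq_comm]
      · rw [if_neg h, if_neg h]; rfl

lemma det_TT (v vi : J → Matrix (α ⊕ β) (α ⊕ β) K) (s si : J → Matrix β β K)
    (y yi : J → Matrix α α K) (hy : ∀ j, y j * yi j = 1)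
    (W : Matrix (J × α × α) (J × α × α) K) :
    (TT v vi s si y yi W).det = W.det * ∏ j,
      (((v j).toBlocks₁₁.det * (vi j).toBlocks₁₁.det) ^ Fintype.card α
        * ((si j - 1).det * (s j - 1).det) ^ Fintype.card α) := by
  obtain ⟨C, hC⟩ := TT_submatrix v vi s si y yi W
  letI i3 : DecidableEq ((J × α × α) ⊕ (J × ((α × β) ⊕ ((β × α) ⊕ (β × β))))) :=
    instDecidableEqSum
  rw [← Matrix.det_submatrix_equiv_self (idxE J α β), hC, det_fromBlocks_zero₁₂, det_AA, det_BB,
    mul_comm _ W.det, mul_assoc, ← Finset.prod_mul_distrib]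
  congr 1
  refine Finset.prod_congr rfl fun j _ => ?_
  have h1 : (y j).det * (yi j).det = 1 := by rw [← det_mul, hy, det_one]
  rw [det_mul, det_mul, ← mul_pow, ← mul_pow]
  congr 2
  linear_combination ((v j).toBlocks₁₁.det * (vi j).toBlocks₁₁.det) * h1

/-- the full determinant -/
theorem det_D (v vi : J → Matrix (α ⊕ β) (α ⊕ β) K) (s si : J → Matrix β β K)
    (y yi : J → Matrix α α K) (hv : ∀ j, v j * vi j = 1) (hy : ∀ j, y j * yi j = 1)
    (W : Matrix (J × α × α) (J × α × α) K)
    (D : Matrix (J × (α ⊕ β) × (α ⊕ β)) (J × (α ⊕ β) × (α ⊕ β)) K)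
    (hD : ∀ j c, (Matrix.of fun a b => D (j, a, b) c)
      = XB (y j) * vi j * Tc v vi s si y yi W j c * v j * XB (yi j)) :
    D.det = W.det * ∏ j,
      (((v j).toBlocks₁₁.det * (vi j).toBlocks₁₁.det) ^ Fintype.card α
        * ((si j - 1).det * (s j - 1).det) ^ Fintype.card α) := by
  set P : J → Matrix (α ⊕ β) (α ⊕ β) K := fun j => XB (y j) * vi j with hP
  set Q : J → Matrix (α ⊕ β) (α ⊕ β) K := fun j => v j * XB (yi j) with hQ
  have h1 : D = (Matrix.of fun (x z : J × ((α ⊕ β) × (α ⊕ β))) => if x.1 = z.1 then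
      (Matrix.of fun (c d : (α ⊕ β) × (α ⊕ β)) => P x.1 c.1 d.1 *
        Q x.1 d.2 c.2) x.2 z.2 else 0) * TT v vi s si y yi W := by
    ext ⟨j, p, q⟩ c
    have h2 := congrFun (congrFun (hD j c) p) q
    rw [Matrix.of_apply, show XB (y j) * vi j * Tc v vi s si y yi W j c * v j * XB (yi j)
        = P j * Tc v vi s si y yi W j c * Q j by
          simp only [hP, hQ, Matrix.mul_assoc]] at h2
    rw [h2, Matrix.mul_apply (M := Matrix.of _), Fintype.sum_prod_type, Finset.sum_eq_single j]
    ·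
      simp only [Matrix.of_apply, if_true, Fintype.sum_prod_type]
      rw [Matrix.mul_apply, Finset.sum_comm]
      refine Finset.sum_congr rfl fun b _ => ?_
      rw [Matrix.mul_apply, Finset.sum_mul]
      refine Finset.sum_congr rfl fun a _ => ?_
      simp only [TT, Matrix.of_apply]
      ring
    · intro i _ hi
      simp [Ne.symm hi]
    · intro h; exact absurd (Finset.mem_univ _) h
  rw [h1, Matrix.det_mul, det_TT v vi s si y yi hy,
    det_blockDiag (fun j => (Matrix.of fun (c d : (α ⊕ β) × (α ⊕ β)) => P j c.1 d.1 *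
        Q j d.2 c.2))]
  have h3 : ∀ j, (Matrix.of fun (c d : (α ⊕ β) × (α ⊕ β)) => P j c.1 d.1 *
        Q j d.2 c.2).det = 1 := by
    intro j
    rw [det_mulmul, ← mul_pow, ← Matrix.det_mul]
    have h4 : P j * Q j = 1 := by
      have h5 : vi j * v j = 1 := mul_eq_one_comm.1 (hv j)
      rw [hP, hQ]
      simp only
      rw [Matrix.mul_assoc, ← Matrix.mul_assoc (vi j), h5, Matrix.one_mul]
      simp [XB, fromBlocks_multiply, hy]
    rw [h4, Matrix.det_one, one_pow]
  simp only [h3, Finset.prod_const_one, one_mul]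

end Tri

end Vale.Agent.P174.H513
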