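import Vale.Agent.P174.T2.Iface
import Vale.Agent.P174.H513.DetVal

set_option linter.all false

namespace Vale.Agent.P174.H513

open Matrix Finset MvPolynomial MeasureTheory Vale.Agent.P174 Vale.Agent.P174.T2

section Emb

variable {N L : ℕ}

lemma blk_add (A A' : Mat N) (D D' : Mat L) : blk (A + A') (D + D') = blk A D + blk A' D' := by
  have h : Matrix.fromBlocks (A + A') 0 0 (D + D') =
      Matrix.fromBlocks A 0 0 D + Matrix.fromBlocks A' 0 0 D' := by
    rw [Matrix.fromBlocks_add]; simp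
  unfold blk
  rw [h]
  rfl

lemma blk_zero : blk (0 : Mat N) (0 : Mat L) = 0 := by
  simp [blk]

lemma coe_inv_UU {M : ℕ} (u : UU M) : ((u⁻¹ : UU M) : Mat M) = star (u : Mat M) := rfl

/-- block embedding of the tangent groups -/
noncomputable def blkT : TG N →* TG (N + L) where
  toFun a := ⟨blk a.x 0, blkU (a.u, 1)⟩
  map_one' := by
    apply TG.ext'
    · exact blk_zero
    · exact map_one blkU
  map_mul' a b := by
    apply TG.ext'
    · rw [TG.mul_x, TG.mul_x]
      have h1 : ((blkU (a.u, (1 : UU L)))⁻¹ : UU (N + L)) = blkU (a.u⁻¹, 1) := by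
        rw [← map_inv]; simp
      show blk (a.x + (a.u : Mat N) * b.x * ((a.u⁻¹ : UU N) : Mat N)) (0 : Mat L) =
        blk a.x 0 + ((blkU (a.u, (1 : UU L)) : UU (N + L)) : Mat (N + L)) * blk b.x 0 *
          (((blkU (a.u, (1 : UU L)))⁻¹ : UU (N + L)) : Mat (N + L))
      rw [h1, coe_blkU, coe_blkU, ← blk_mul, ← blk_mul, ← blk_add]
      simp
    · show blkU (a.u * b.u, 1) = blkU (a.u, 1) * blkU (b.u, 1)
      rw [← map_mul]; simp

variable {J : Type}

lemma kap_inr {P : Type*} (p : P) : kap (J := J) (FreeGroup.of (Sum.inr p)) = FreeGroup.of (Sum.inr p) := by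
  simp [kap]

lemma kap_pi {P : Type*} (i : J) :
    kap (P := P) (FreeGroup.of (Sum.inl (Sum.inl i))) = FreeGroup.of (vp i) := by
  simp [kap]

lemma kap_vs {P : Type*} (i : J) :
    kap (P := P) (FreeGroup.of (Sum.inl (Sum.inr i)))
      = (FreeGroup.of (vv i))⁻¹ * FreeGroup.of (vs i) * FreeGroup.of (vv i) := by
  simp [kap]

lemma fox_prod (z : HS J N L) (Y : Sv J ⊕ (J × ℕ) → Mat (N + L)) (Y0 : J → Mat N)
    (h1 : ∀ i, Y (vp i) = blk (Y0 i) 0) (h2 : ∀ p, Y (Sum.inr p) = 0) (j : J)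
    (l : List (J × Bool)) (k : ℕ) :
    fox (Sum.elim (inc z) (1 : J × ℕ → UU (N + L))) Y (kap (prodl j k l))
      = blkT (fox (Sum.elim z.1 (1 : J × ℕ → UU N)) (Sum.elim Y0 0)
          (FreeGroup.mk (l.map fun x => (Sum.inl x.1, x.2)))) := by
  induction l generalizing k with
  | nil =>
    rw [prodl, List.map_nil, show FreeGroup.mk ([] : List ((J ⊕ (J × ℕ)) × Bool)) = 1 from rfl]
    simp only [map_one]
  | cons x l ih =>
    have hp : ∀ p : J × ℕ, fox (Sum.elim (inc z) (1 : J × ℕ → UU (N + L))) Y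
        (FreeGroup.of (Sum.inr p)) = 1 := by
      intro p
      rw [fox_of]
      apply TG.ext'
      · exact h2 p
      · rfl
    have hv : ∀ i : J, fox (Sum.elim (inc z) (1 : J × ℕ → UU (N + L))) Y
        (FreeGroup.of (vp i)) = blkT (fox (Sum.elim z.1 (1 : J × ℕ → UU N)) (Sum.elim Y0 0)
          (FreeGroup.of (Sum.inl i))) := by
      intro i
      rw [fox_of, fox_of]
      apply TG.ext'
      · exact h1 i
      · rfl
    obtain ⟨i, b⟩ := x
    rw [prodl, map_mul, map_mul, ih, List.map_cons]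
    cases b
    · rw [mk_cons_false, map_mul, map_mul, map_inv, map_inv, ← hv]
      congr 1
      rw [lett, map_mul, map_mul, map_mul, map_mul, map_inv, map_inv, kap_inr, hp, one_mul, inv_one,
        mul_one, show FreeGroup.mk [((Sum.inl (Sum.inl i) : (J ⊕ J) ⊕ (J × ℕ)), false)]
          = (FreeGroup.of (Sum.inl (Sum.inl i)))⁻¹ from rfl, map_inv, map_inv, kap_pi]
    · rw [mk_cons_true, map_mul, map_mul, ← hv]
      congr 1
      rw [lett, map_mul, map_mul, map_mul, map_mul, map_inv, map_inv, kap_inr, hp, one_mul, inv_one,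
        mul_one, show FreeGroup.mk [((Sum.inl (Sum.inl i) : (J ⊕ J) ⊕ (J × ℕ)), true)]
          = (FreeGroup.of (Sum.inl (Sum.inl i))) from rfl, kap_pi]

lemma fx_wf (z : HS J N L) (Y : Sv J ⊕ (J × ℕ) → Mat (N + L)) (Y0 : J → Mat N)
    (h1 : ∀ i, Y (vp i) = blk (Y0 i) 0) (h2 : ∀ p, Y (Sum.inr p) = 0) (occ : J → List (J × Bool))
    (j : J) :
    fx (Sum.elim (inc z) (1 : J × ℕ → UU (N + L))) Y (wf occ j)
      = blk (fx (Sum.elim z.1 (1 : J × ℕ → UU N)) (Sum.elim Y0 0) (W0 occ j)) 0 +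
        blk ((FreeGroup.lift (Sum.elim z.1 (1 : J × ℕ → UU N)) (W0 occ j) : UU N) : Mat N) 1 *
        (star ((z.2.1 j : UU (N + L)) : Mat (N + L)) * (blk 1 (z.2.2 j : Mat L) * Y (vv j) *
          blk 1 (star (z.2.2 j : Mat L)) - Y (vv j) + Y (vs j)) * ((z.2.1 j : UU (N + L)) : Mat (N + L))) *
        blk (star ((FreeGroup.lift (Sum.elim z.1 (1 : J × ℕ → UU N)) (W0 occ j) : UU N) : Mat N)) 1 := by
  have hp : ∀ p : J × ℕ, fox (Sum.elim (inc z) (1 : J × ℕ → UU (N + L))) Y
      (FreeGroup.of (Sum.inr p)) = 1 := by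
    intro p
    rw [fox_of]
    apply TG.ext'
    · exact h2 p
    · rfl
  have hw : fox (Sum.elim (inc z) (1 : J × ℕ → UU (N + L))) Y (wf occ j)
      = blkT (fox (Sum.elim z.1 (1 : J × ℕ → UU N)) (Sum.elim Y0 0) (W0 occ j)) *
        ((⟨Y (vv j), z.2.1 j⟩ : TG (N + L))⁻¹ * ⟨Y (vs j), blkU (1, z.2.2 j)⟩ * ⟨Y (vv j), z.2.1 j⟩) := by
    rw [wf, map_mul, map_mul, map_mul, map_mul, map_inv, map_inv, kap_inr, hp, inv_one, one_mul,
      fox_prod z Y Y0 h1 h2, kap_vs, map_mul, map_mul, map_inv, fox_of, fox_of]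
    rfl
  rw [fx, hw, TG.mul_x]
  show blk _ 0 + ((blkU ((fox (Sum.elim z.1 (1 : J × ℕ → UU N)) (Sum.elim Y0 0) (W0 occ j)).u, 1) :
      UU (N + L)) : Mat (N + L)) * _ * (((blkU ((fox (Sum.elim z.1 (1 : J × ℕ → UU N))
      (Sum.elim Y0 0) (W0 occ j)).u, 1))⁻¹ : UU (N + L)) : Mat (N + L)) = _
  rw [fox_u, ← map_inv, Prod.inv_mk, inv_one, coe_blkU, coe_blkU, ← fx, ← coe_inv_UU]
  congr 2
  congr 1
  rw [TG.mul_x, TG.mul_x, TG.inv_x, TG.mul_u, TG.inv_u]
  show - ((((z.2.1 j)⁻¹ : UU (N + L)) : Mat (N + L)) * Y (vv j) * ((z.2.1 j : UU (N + L)) : Mat (N + L)))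
    + (((z.2.1 j)⁻¹ : UU (N + L)) : Mat (N + L)) * Y (vs j) *
      (((z.2.1 j)⁻¹⁻¹ : UU (N + L)) : Mat (N + L))
    + ((((z.2.1 j)⁻¹ * blkU (1, z.2.2 j) : UU (N + L))) : Mat (N + L)) * Y (vv j) *
      ((((z.2.1 j)⁻¹ * blkU (1, z.2.2 j) : UU (N + L))⁻¹ : UU (N + L)) : Mat (N + L)) = _
  rw [_root_.mul_inv_rev, ← map_inv, inv_inv, Prod.inv_mk, inv_one, Submonoid.coe_mul,
    Submonoid.coe_mul, coe_blkU, coe_blkU, OneMemClass.coe_one, coe_inv_UU (z.2.2 j)]
  simp only [Matrix.mul_assoc, Matrix.mul_add, Matrix.mul_sub, Matrix.add_mul, Matrix.sub_mul]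
  abel

end Emb

section Main

variable {J : Type} [Fintype J] [DecidableEq J] {N L : ℕ}

/-- `|det v₁₁|^{2N}` -/
noncomputable def Gv (N L : ℕ) (v : UU (N + L)) : ℝ :=
  ‖((v : Mat (N + L)).submatrix (Fin.castAdd L) (Fin.castAdd L)).det‖ ^ (2 * N)

/-- `|det (s - 1)|^{2N}` -/
noncomputable def Gs (N L : ℕ) (s : UU L) : ℝ := ‖((s : Mat L) - 1).det‖ ^ (2 * N)

/-- The value of the Jacobian determinant when all parameters are `1`. -/
def JacDetStmt (J : Type) [Fintype J] [DecidableEq J] : Prop :=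
  ∀ (N L : ℕ) (occ : J → List (J × Bool)) (z : HS J N L),
  (jacS N (wf occ) (Sum.elim (inc z) (1 : J × ℕ → UU (N + L)))).det
   = (jacM (W0 occ) (Sum.elim z.1 (1 : J × ℕ → UU N))).det *
      (((∏ j, Gv N L (z.2.1 j)) * (∏ j, Gs N L (z.2.2 j)) : ℝ) : ℂ)

/-- short name for the index equivalence -/
abbrev fE (N L : ℕ) : Fin N ⊕ Fin L ≃ Fin (N + L) := finSumFinEquiv

lemma blk_sub (A : Mat N) (D : Mat L) : (blk A D).submatrix (fE N L) (fE N L) =
    fromBlocks A 0 0 D := by
  simp [blk, Matrix.submatrix_submatrix]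

lemma single_sub (P Q : Fin N ⊕ Fin L) :
    (Matrix.single (fE N L P) (fE N L Q) (1 : ℂ)).submatrix (fE N L) (fE N L) = single P Q 1 := by
  ext a b
  simp [Matrix.single_apply]

lemma mul_sub' (A B : Mat (N + L)) : (A * B).submatrix (fE N L) (fE N L) =
    A.submatrix (fE N L) (fE N L) * B.submatrix (fE N L) (fE N L) := by
  rw [Matrix.submatrix_mul_equiv]

lemma fx_zero_dir {V : Type*} (t : V → UU N) (w : FreeGroup V) : fx t (0 : V → Mat N) w = 0 := by
  have := fx_smul t (0 : ℂ) (0 : V → Mat N) w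
  simpa using this

lemma slot_ll (i : J) (p q : Fin N) :
    slot N (i, fE N L (Sum.inl p), fE N L (Sum.inl q)) = Sum.inl i := by
  simp [slot, fE]

lemma slot_rr (i : J) (p q : Fin L) :
    slot N (i, fE N L (Sum.inr p), fE N L (Sum.inr q)) = Sum.inr (Sum.inr i) := by
  simp [slot, fE]

lemma slot_lr (i : J) (p : Fin N) (q : Fin L) :
    slot N (i, fE N L (Sum.inl p), fE N L (Sum.inr q)) = Sum.inr (Sum.inl i) := by
  simp [slot, fE]

lemma slot_rl (i : J) (p : Fin L) (q : Fin N) :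
    slot N (i, fE N L (Sum.inr p), fE N L (Sum.inl q)) = Sum.inr (Sum.inl i) := by
  simp [slot, fE]

lemma blk_single (p q : Fin N) : Matrix.single (fE N L (Sum.inl p)) (fE N L (Sum.inl q)) (1 : ℂ)
    = blk (Matrix.single p q 1) 0 := by
  ext a b
  obtain ⟨a, rfl⟩ := (fE N L).surjective a
  obtain ⟨b, rfl⟩ := (fE N L).surjective b
  rcases a with a | a <;> rcases b with b | b <;>
    simp [blk, Matrix.single_apply, fE, -finSumFinEquiv_apply_left, -finSumFinEquiv_apply_right]

theorem jacDet : JacDetStmt J := by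
  intro N L occ z
  set tt := Sum.elim (inc z) (1 : J × ℕ → UU (N + L)) with htt
  set t0 := Sum.elim z.1 (1 : J × ℕ → UU N) with ht0
  let φ : J × (Fin N ⊕ Fin L) × (Fin N ⊕ Fin L) ≃ Ix J (N + L) :=
    (Equiv.refl J).prodCongr ((fE N L).prodCongr (fE N L))
  rw [← Matrix.det_submatrix_equiv_self φ]
  let v : J → Matrix (Fin N ⊕ Fin L) (Fin N ⊕ Fin L) ℂ := fun j =>
    ((z.2.1 j : UU (N + L)) : Mat (N + L)).submatrix (fE N L) (fE N L)
  let vi : J → Matrix (Fin N ⊕ Fin L) (Fin N ⊕ Fin L) ℂ := fun j => star (v j)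
  let y : J → Mat N := fun j => ((FreeGroup.lift t0 (W0 occ j) : UU N) : Mat N)
  have hv : ∀ j, v j * vi j = 1 := by
    intro j
    have h1 : vi j = (star ((z.2.1 j : UU (N + L)) : Mat (N + L))).submatrix (fE N L) (fE N L) := rfl
    rw [h1, ← mul_sub', Matrix.mem_unitaryGroup_iff.1 (z.2.1 j).2]
    simp
  have hvi : ∀ j, vi j * v j = 1 := fun j => mul_eq_one_comm.1 (hv j)
  have hy : ∀ j, y j * star (y j) = 1 := fun j =>
    Matrix.mem_unitaryGroup_iff.1 (FreeGroup.lift t0 (W0 occ j)).2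
  have hyi : ∀ j, star (y j) * y j = 1 := fun j => mul_eq_one_comm.1 (hy j)
  have hX1 : ∀ j, XB (β := Fin L) (y j) * XB (star (y j)) = 1 := by
    intro j; simp [XB, fromBlocks_multiply, hy]
  have key := det_D v vi (fun j => ((z.2.2 j : UU L) : Mat L))
    (fun j => star ((z.2.2 j : UU L) : Mat L)) y (fun j => star (y j)) hv hy
    (jacM (W0 occ) t0) ((jacS N (wf occ) tt).submatrix φ φ) ?_
  · rw [key]
    congr 1
    rw [← Finset.prod_mul_distrib]
    push_cast
    refine Finset.prod_congr rfl fun j _ => ?_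
    have e1 : (v j).toBlocks₁₁.det * (vi j).toBlocks₁₁.det
        = ((‖((z.2.1 j : Mat (N + L)).submatrix (Fin.castAdd L) (Fin.castAdd L)).det‖ ^ 2 : ℝ) : ℂ) := by
      have h1 : (v j).toBlocks₁₁ = (z.2.1 j : Mat (N + L)).submatrix (Fin.castAdd L) (Fin.castAdd L) := by
        ext a b; simp [v, toBlocks₁₁, fE]
      have h2 : (vi j).toBlocks₁₁ = ((v j).toBlocks₁₁)ᴴ := by
        ext a b; simp [vi, toBlocks₁₁, Matrix.star_apply]
      rw [h2, h1, Matrix.det_conjTranspose, RCLike.star_def, RCLike.mul_conj]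
      push_cast; rfl
    have e2 : (star ((z.2.2 j : UU L) : Mat L) - 1).det * (((z.2.2 j : UU L) : Mat L) - 1).det
        = ((‖(((z.2.2 j : UU L) : Mat L) - 1).det‖ ^ 2 : ℝ) : ℂ) := by
      have h1 : star ((z.2.2 j : UU L) : Mat L) - 1 = (((z.2.2 j : UU L) : Mat L) - 1)ᴴ := by
        rw [← Matrix.star_eq_conjTranspose, star_sub, star_one]
      rw [h1, Matrix.det_conjTranspose, mul_comm, RCLike.star_def, RCLike.mul_conj]
      push_cast; rfl
    rw [e1, e2, Fintype.card_fin, Gv, Gs, pow_mul, pow_mul]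
    push_cast
    rfl
  · have hX2 : ∀ j, XB (β := Fin L) (star (y j)) * XB (y j) = 1 := by
      intro j; simp [XB, fromBlocks_multiply, hyi]
    have hblk : ∀ (j : J) (Z : Mat (N + L)),
        (blk (y j) 1 * (star ((z.2.1 j : UU (N + L)) : Mat (N + L)) * Z *
          ((z.2.1 j : UU (N + L)) : Mat (N + L))) * blk (star (y j)) 1).submatrix (fE N L) (fE N L)
        = XB (y j) * vi j * Z.submatrix (fE N L) (fE N L) * v j * XB (star (y j)) := by
      intro j Z
      rw [mul_sub', mul_sub', mul_sub', mul_sub', blk_sub, blk_sub]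
      simp only [Matrix.mul_assoc]
      rfl
    have hS : ∀ (j : J) (Z : Mat (N + L)),
        (blk 1 ((z.2.2 j : UU L) : Mat L) * Z * blk 1 (star ((z.2.2 j : UU L) : Mat L)) - Z).submatrix
          (fE N L) (fE N L) = SB ((z.2.2 j : UU L) : Mat L) * Z.submatrix (fE N L) (fE N L) *
          SB (star ((z.2.2 j : UU L) : Mat L)) - Z.submatrix (fE N L) (fE N L) := by
      intro j Z
      have h4 : ∀ A B : Mat (N + L), (A - B).submatrix (fE N L) (fE N L) =
        A.submatrix (fE N L) (fE N L) - B.submatrix (fE N L) (fE N L) := fun _ _ => rfl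
      rw [h4, mul_sub', mul_sub', blk_sub, blk_sub]
    have hcol : ∀ (j i : J) (P Q : Fin N ⊕ Fin L) (Y : Sv J ⊕ (J × ℕ) → Mat (N + L)),
        dirS N (i, fE N L P, fE N L Q) = Y → (∀ i, Y (vp i) = 0) →
        (Matrix.of fun a b => (jacS N (wf occ) tt).submatrix φ φ (j, a, b) (i, P, Q))
        = XB (y j) * vi j * (SB ((z.2.2 j : UU L) : Mat L) * (Y (vv j)).submatrix (fE N L) (fE N L) *
          SB (star ((z.2.2 j : UU L) : Mat L)) - (Y (vv j)).submatrix (fE N L) (fE N L)
            + (Y (vs j)).submatrix (fE N L) (fE N L)) * v j * XB (star (y j)) := by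
      intro j i P Q Y hY hYp
      have h0 := fx_wf z Y (fun _ => 0) (by intro k; rw [hYp, blk_zero])
        (fun p => by rw [← hY]; rfl) occ j
      have h00 : (Sum.elim (fun _ : J => (0 : Mat N)) 0 : J ⊕ (J × ℕ) → Mat N) = 0 := by
        ext1 x; cases x <;> rfl
      rw [h00, fx_zero_dir, blk_zero, zero_add] at h0
      have h3 := congrArg (fun A : Mat (N + L) => A.submatrix (fE N L) (fE N L)) h0
      simp only [← ht0] at h3
      rw [hblk j] at h3
      have h4 : ∀ A B : Mat (N + L), (A + B).submatrix (fE N L) (fE N L) =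
        A.submatrix (fE N L) (fE N L) + B.submatrix (fE N L) (fE N L) := fun _ _ => rfl
      rw [h4, hS] at h3
      rw [← h3, ← hY]
      rfl
    rintro j ⟨i, (p | p), (q | q)⟩
    · have h0 := fx_wf z (dirS N (i, fE N L (Sum.inl p), fE N L (Sum.inl q)))
        (fun k => if k = i then Matrix.single p q 1 else 0) (by
          intro k
          rw [dirS, slot_ll]
          simp only [Sum.elim_inl, Sum.inl.injEq]
          split_ifs with h
          · exact blk_single p q
          · exact blk_zero.symm) (fun _ => rfl) occ j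
      have e1 : dirS N (i, fE N L (Sum.inl p), fE N L (Sum.inl q)) (vv j : Sv J ⊕ (J × ℕ)) = 0 := by
        rw [dirS, slot_ll]; simp
      have e2 : dirS N (i, fE N L (Sum.inl p), fE N L (Sum.inl q)) (vs j : Sv J ⊕ (J × ℕ)) = 0 := by
        rw [dirS, slot_ll]; simp
      rw [e1, e2] at h0
      simp only [Matrix.mul_zero, Matrix.zero_mul, sub_zero, add_zero] at h0
      have h3 := congrArg (fun A : Mat (N + L) => A.submatrix (fE N L) (fE N L)) h0
      simp only [blk_sub, ← ht0] at h3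
      have h5 : XB (y j) * vi j * Tc v vi (fun j => ((z.2.2 j : UU L) : Mat L))
          (fun j => star ((z.2.2 j : UU L) : Mat L)) y (fun j => star (y j)) (jacM (W0 occ) t0) j
          (i, Sum.inl p, Sum.inl q) * v j * XB (star (y j))
          = TB (Matrix.of fun a b => jacM (W0 occ) t0 (j, a, b) (i, p, q)) := by
        simp only [Tc]
        calc _ = XB (y j) * (vi j * v j) * XB (star (y j)) *
              TB (Matrix.of fun a b => jacM (W0 occ) t0 (j, a, b) (i, p, q)) * XB (y j) *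
              (vi j * v j) * XB (star (y j)) := by simp only [Matrix.mul_assoc]
          _ = (XB (y j) * XB (star (y j))) *
              TB (Matrix.of fun a b => jacM (W0 occ) t0 (j, a, b) (i, p, q)) *
              (XB (y j) * XB (star (y j))) := by
                rw [hvi]; simp only [Matrix.mul_assoc, Matrix.one_mul, Matrix.mul_one]
          _ = _ := by rw [hX1]; simp only [Matrix.one_mul, Matrix.mul_one]
      rw [h5]
      exact h3
    · rw [hcol j i _ _ _ rfl (fun k => by rw [dirS, slot_lr]; simp)]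
      congr 3
      rw [dirS, slot_lr]
      simp only [Tc, Sum.elim_inl, Sum.inl.injEq, Sum.inr.injEq, reduceCtorEq, if_false]
      split_ifs with h
      · rw [single_sub]
        simp
      · simp
    · rw [hcol j i _ _ _ rfl (fun k => by rw [dirS, slot_rl]; simp)]
      congr 3
      rw [dirS, slot_rl]
      simp only [Tc, Sum.elim_inl, Sum.inl.injEq, Sum.inr.injEq, reduceCtorEq, if_false]
      split_ifs with h
      · rw [single_sub]
        simp
      · simp
    · rw [hcol j i _ _ _ rfl (fun k => by rw [dirS, slot_rr]; simp)]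
      congr 3
      rw [dirS, slot_rr]
      simp only [Tc, Sum.elim_inl, Sum.inl.injEq, Sum.inr.injEq, reduceCtorEq, if_false]
      split_ifs with h
      · rw [single_sub]
        simp
      · simp

end Main

end Vale.Agent.P174.H513
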